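import Vale.Agent.P259.Bdl.B1

/-!
The Grothendieck homotopy hypothesis: for every coherator and every disc functor, the fundamental
`∞`-groupoid functor induces an equivalence between the homotopy category of spaces and the
localization of the category of `∞`-groupoids at the weak equivalences.
-/

open CategoryTheory Vale.Agent.P259 S Theta0

theorem Vale.Agent.Results.P259.HomotopyHypothesis.result {Q : Type} [SmallCategory Q] :
    (∃ A, IsCoherator A) ∧ ∀ J : Glob Q, IsCoherator ⟨Q, J⟩ →
    (∃ F, IsDisc J F) ∧ ∀ F, IsDisc J F → ∀ q : ∀ i, J.o (disc i) ⟶ J.o (disc 0), q 0 = 𝟙 _ →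
      (∀ i, IsLift (A := ⟨Q, J⟩) (fun _ => q i) (q i.succ)) →
      ∀ (B : ℕ → CompactlyGenerated.{0, 0}) (d : Bool → ∀ {i}, B i ⟶ B i.succ)
        (c : ∀ {i}, B i ⟶ B 0), Nonempty (IsBall d) →
      LocEq (F.op ⋙ coyoneda).flip (Gl J yoneda) (we d c)
        (we (fun b {i} => yoneda.map (J.s (.face b i.lt_succ_self))) fun {i} => yoneda.map (q i)) :=
  main
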