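import Vale.Agent.P259.HomotopyHypothesisTop

open CategoryTheory Vale.Agent.P259 StmtB Theta0

theorem Vale.Agent.Results.P259.HomotopyHypothesisTop.result {Q : Type} [SmallCategory Q] :
    (∃ J, IsCoherator J) ∧ ∀ J : Glob Q, IsCoherator ⟨Q, J⟩ → (∃ F, IsDisc J F) ∧ ∀ F, IsDisc J F →
    ∀ id : ∀ n, Ext.H ⟨Q, J⟩ (disc n) (disc 0), (∀ n, IsLift (fun _ => id n) (id n.succ)) →
    LocEq (F.op ⋙ coyoneda).flip (Gl J yoneda)
      (we (fun ι {n} => yoneda.map (J.s (.face ι n.lt_succ_self))) fun {n} => yoneda.map (id n)) :=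
  main
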